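import Vale.Agent.P338.CoreSpecD

/-!
# Stage 2: the parameters as functions of the matrix dimension `n0`, and their bounds
-/

namespace Vale.Agent.P338.D

/-- `k = log2 n0` -/
def kk (n0 : ℕ) : ℕ := Nat.log 2 n0
/-- `beta = log2 k - 2` -/
def be (n0 : ℕ) : ℕ := Nat.log 2 (kk n0) - 2
/-- payload bits -/
def bb (n0 : ℕ) : ℕ := 2 ^ be n0
/-- width of a number -/
def WW (n0 : ℕ) : ℕ := 10 * (kk n0 + 9) + 1

theorem WW_odd (n0 : ℕ) : WW n0 % 2 = 1 := by
  unfold WW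
  omega

/-- start of the search for a prime -/
def s00 (n0 : ℕ) : ℕ := n0 / bb n0 + 2 ^ (2 * bb n0 + 3)

theorem exists_prime_gt (m : ℕ) : ∃ p, m < p ∧ p.Prime := by
  obtain ⟨p, h1, h2⟩ := Nat.exists_infinite_primes (m + 1)
  exact ⟨p, h1, h2⟩

/-- the least prime larger than `s00 n0` -/
def pp (n0 : ℕ) : ℕ := Nat.find (exists_prime_gt (s00 n0))

theorem pp_prime (n0 : ℕ) : (pp n0).Prime := (Nat.find_spec (exists_prime_gt (s00 n0))).2
theorem s00_lt_pp (n0 : ℕ) : s00 n0 < pp n0 := (Nat.find_spec (exists_prime_gt (s00 n0))).1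
theorem pp_min {n0 q : ℕ} (h1 : s00 n0 < q) (h2 : q < pp n0) : ¬ q.Prime := fun h =>
  Nat.find_min (exists_prime_gt (s00 n0)) h2 ⟨h1, h⟩

theorem bb_pos (n0 : ℕ) : 0 < bb n0 := by unfold bb; positivity

theorem s00_pos (n0 : ℕ) : 0 < s00 n0 := by unfold s00; positivity

theorem pp_le (n0 : ℕ) : pp n0 ≤ 2 * s00 n0 := by
  obtain ⟨q, hq, h1, h2⟩ := Nat.exists_prime_lt_and_le_two_mul (s00 n0) (s00_pos n0).ne'
  exact (Nat.find_min' (exists_prime_gt (s00 n0)) ⟨h1, hq⟩).trans h2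

theorem bb_le (n0 : ℕ) : bb n0 = 1 ∨ 4 * bb n0 ≤ kk n0 := by
  unfold bb be
  rcases le_or_gt (Nat.log 2 (kk n0)) 2 with h | h
  · left
    rw [Nat.sub_eq_zero_of_le h, pow_zero]
  · right
    have hk : kk n0 ≠ 0 := by
      rintro h0
      rw [h0] at h
      simp at h
    have h1 := Nat.pow_log_le_self 2 hk
    have h2 : Nat.log 2 (kk n0) = (Nat.log 2 (kk n0) - 2) + 2 := by omega
    rw [h2, pow_add] at h1
    omega

/-- `k < 8 b` : the payload is a constant fraction of `log n0` -/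
theorem kk_lt (n0 : ℕ) : kk n0 < 8 * bb n0 := by
  unfold bb be
  have h1 := Nat.lt_pow_succ_log_self (b := 2) (by norm_num) (kk n0)
  rcases le_or_gt (Nat.log 2 (kk n0)) 2 with h | h
  · rw [Nat.sub_eq_zero_of_le h, pow_zero]
    have : 2 ^ (Nat.log 2 (kk n0)).succ ≤ 2 ^ 3 := Nat.pow_le_pow_right (by norm_num) (by omega)
    omega
  · have h2 : (Nat.log 2 (kk n0)).succ = (Nat.log 2 (kk n0) - 2) + 3 := by omega
    rw [h2, pow_add] at h1
    omega

theorem two_pow_kk_le {n0 : ℕ} (h : n0 ≠ 0) : 2 ^ kk n0 ≤ n0 := Nat.pow_log_le_self 2 h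
theorem lt_two_pow_kk (n0 : ℕ) : n0 < 2 ^ (kk n0 + 1) :=
  Nat.lt_pow_succ_log_self (b := 2) (by norm_num) n0

theorem two_bb_le (n0 : ℕ) : 2 * bb n0 + 3 ≤ kk n0 + 5 := by
  rcases bb_le n0 with h | h <;> omega

theorem s00_lt (n0 : ℕ) : s00 n0 < 2 ^ (kk n0 + 6) := by
  unfold s00
  have h1 : n0 / bb n0 ≤ n0 := Nat.div_le_self _ _
  have h2 := lt_two_pow_kk n0
  have h3 : 2 ^ (2 * bb n0 + 3) ≤ 2 ^ (kk n0 + 5) :=
    Nat.pow_le_pow_right (by norm_num) (two_bb_le n0)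
  have h4 : 2 ^ (kk n0 + 6) = 2 ^ kk n0 * 64 := by rw [pow_add]; norm_num
  have h5 : 2 ^ (kk n0 + 5) = 2 ^ kk n0 * 32 := by rw [pow_add]; norm_num
  have h6 : 2 ^ (kk n0 + 1) = 2 ^ kk n0 * 2 := by rw [pow_succ]
  have h7 : 0 < 2 ^ kk n0 := by positivity
  omega

theorem pp_lt (n0 : ℕ) : pp n0 < 2 ^ (kk n0 + 7) := by
  have h1 := pp_le n0
  have h2 := s00_lt n0
  have h3 : 2 ^ (kk n0 + 7) = 2 * 2 ^ (kk n0 + 6) := by rw [pow_succ]; ring
  omega

theorem pp_le' (n0 : ℕ) : pp n0 ≤ 2 ^ (kk n0 + 9) :=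
  (pp_lt n0).le.trans (Nat.pow_le_pow_right (by norm_num) (by omega))

theorem bb_succ_le (n0 : ℕ) : bb n0 + 1 ≤ kk n0 + 9 := by
  rcases bb_le n0 with h | h <;> omega

theorem two_pow_le_pp (n0 : ℕ) : 2 ^ (2 * bb n0 + 3) ≤ pp n0 := by
  have h1 := s00_lt_pp n0
  unfold s00 at h1
  exact (Nat.le_add_left _ _).trans h1.le

/-- the padded dimension -/
def nn (n0 : ℕ) : ℕ := (pp n0 - 1) * bb n0

theorem le_nn (n0 : ℕ) : n0 ≤ nn n0 := by
  unfold nn
  have h1 := s00_lt_pp n0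
  have hb := bb_pos n0
  have h2 : n0 / bb n0 + 1 ≤ pp n0 - 1 := by
    unfold s00 at h1
    have : 1 < 2 ^ (2 * bb n0 + 3) := Nat.one_lt_two_pow (by omega)
    omega
  have h3 : n0 < (n0 / bb n0 + 1) * bb n0 := by
    have := Nat.lt_div_mul_add (a := n0) hb
    rw [Nat.add_mul, one_mul]; exact this
  exact h3.le.trans (Nat.mul_le_mul_right _ h2)

theorem two_bb_three (n0 : ℕ) (h : n0 ≠ 0) : bb n0 * 2 ^ (2 * bb n0 + 3) ≤ 32 * n0 := by
  have h0 := two_pow_kk_le h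
  rcases bb_le n0 with h1 | h1
  · rw [h1]
    have : 1 ≤ n0 := Nat.one_le_iff_ne_zero.mpr h
    norm_num
    omega
  · -- `b ≤ 2^b`, so the product is at most `8 * 2^(3b)`, and `3 b ≤ k`
    have h2 : bb n0 ≤ 2 ^ bb n0 := Nat.lt_two_pow_self.le
    have h3 : bb n0 * 2 ^ (2 * bb n0 + 3) ≤ 2 ^ (3 * bb n0 + 3) := by
      calc _ ≤ 2 ^ bb n0 * 2 ^ (2 * bb n0 + 3) := Nat.mul_le_mul_right _ h2
        _ = 2 ^ (3 * bb n0 + 3) := by rw [← pow_add]; congr 1; omega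
    have h4 : 2 ^ (3 * bb n0 + 3) ≤ 2 ^ (kk n0 + 3) :=
      Nat.pow_le_pow_right (by norm_num) (by omega)
    have h5 : 2 ^ (kk n0 + 3) = 2 ^ kk n0 * 8 := by rw [pow_add]; norm_num
    omega

/-- the padded dimension is at most a constant times `n0` -/
theorem nn_le (n0 : ℕ) (h : n0 ≠ 0) : nn n0 ≤ 66 * n0 := by
  unfold nn
  have h1 := pp_le n0
  have h2 : (pp n0 - 1) * bb n0 ≤ 2 * s00 n0 * bb n0 := Nat.mul_le_mul_right _ (by omega)
  have h3 : 2 * s00 n0 * bb n0 = 2 * (n0 / bb n0 * bb n0) + 2 * (bb n0 * 2 ^ (2 * bb n0 + 3)) := by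
    unfold s00; ring
  have h4 : n0 / bb n0 * bb n0 ≤ n0 := Nat.div_mul_le_self _ _
  have h5 := two_bb_three n0 h
  omega

/-- `W ≤ 161 b`: a slot is at most a constant times the payload -/
theorem WW_le (n0 : ℕ) : WW n0 ≤ 161 * bb n0 := by
  unfold WW
  have h1 := kk_lt n0
  have h2 := bb_pos n0
  omega

/-- number of bits of an operand: `2 s` rows of `n` slots of `2W` bits -/
theorem operand_le (n0 : ℕ) (h : n0 ≠ 0) :
    2 * (pp n0 - 1) * (nn n0 * (2 * WW n0)) ≤ 2805264 * (n0 * n0) := by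
  have h1 := nn_le n0 h
  have h2 := WW_le n0
  have h3 : 2 * (pp n0 - 1) * (nn n0 * (2 * WW n0)) ≤
      2 * (pp n0 - 1) * (nn n0 * (2 * (161 * bb n0))) := by gcongr
  have h4 : 2 * (pp n0 - 1) * (nn n0 * (2 * (161 * bb n0))) = 644 * (nn n0 * nn n0) := by
    unfold nn; ring
  have h5 : nn n0 * nn n0 ≤ (66 * n0) * (66 * n0) := Nat.mul_le_mul h1 h1
  have h6 : (66 * n0) * (66 * n0) = 4356 * (n0 * n0) := by ring
  omega

/-- the prime squared times `W^2` is `O(n^2)`: cost of the two searches -/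
theorem search_le (n0 : ℕ) : pp n0 * pp n0 * (WW n0 * WW n0) ≤ 103684 * (nn n0 * nn n0) := by
  have h2 := WW_le n0
  have hp := (pp_prime n0).two_le
  have h1 : pp n0 ≤ 2 * (pp n0 - 1) := by omega
  calc pp n0 * pp n0 * (WW n0 * WW n0)
      ≤ (2 * (pp n0 - 1)) * (2 * (pp n0 - 1)) * ((161 * bb n0) * (161 * bb n0)) := by gcongr
    _ = 103684 * (nn n0 * nn n0) := by unfold nn; ring

/-- a primitive root modulo a prime, as a natural number and as a unit -/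
theorem exists_root {p : ℕ} (hp : p.Prime) :
    ∃ om : ℕ, 0 < om ∧ om < p ∧ ∃ g : (ZMod p)ˣ, (g : ZMod p) = (om : ZMod p) ∧
      orderOf g = p - 1 := by
  have : Fact p.Prime := ⟨hp⟩
  obtain ⟨g, hg⟩ := IsCyclic.exists_generator (α := (ZMod p)ˣ)
  refine ⟨(g : ZMod p).val, ?_, ZMod.val_lt _, g, ?_, ?_⟩
  · rw [Nat.pos_iff_ne_zero, Ne, ZMod.val_eq_zero]
    exact g.ne_zero
  · rw [ZMod.natCast_val, ZMod.cast_id', id]
  · have h1 := orderOf_eq_card_of_forall_mem_zpowers hg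
    rw [h1, Nat.card_eq_fintype_card, ZMod.card_units_eq_totient, Nat.totient_prime hp]

/-- the test used by the program: `om` has order `p - 1` iff `om^e ≠ 1` for `0 < e < p-1` -/
theorem orderOf_eq_of_test {p om : ℕ} (hp : p.Prime) (h0 : 0 < om) (h1 : om < p)
    (ht : ∀ e, 0 < e → e < p - 1 → om ^ e % p ≠ 1) :
    ∃ g : (ZMod p)ˣ, (g : ZMod p) = (om : ZMod p) ∧ orderOf g = p - 1 := by
  have : Fact p.Prime := ⟨hp⟩
  have hp2 := hp.two_le
  have hne : (om : ZMod p) ≠ 0 := by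
    intro h
    rw [ZMod.natCast_eq_zero_iff] at h
    exact absurd (Nat.le_of_dvd h0 h) (by omega)
  refine ⟨Units.mk0 (om : ZMod p) hne, rfl, ?_⟩
  have hdvd : orderOf (Units.mk0 (om : ZMod p) hne) ∣ p - 1 := by
    rw [orderOf_dvd_iff_pow_eq_one]
    exact ZMod.units_pow_card_sub_one_eq_one p _
  have hle := Nat.le_of_dvd (by omega) hdvd
  by_contra hlt
  have hpos : 0 < orderOf (Units.mk0 (om : ZMod p) hne) := orderOf_pos _
  refine ht _ hpos (by omega) ?_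
  have h2 : ((om ^ orderOf (Units.mk0 (om : ZMod p) hne) : ℕ) : ZMod p) = ((1 : ℕ) : ZMod p) := by
    have h3 : ((Units.mk0 (om : ZMod p) hne ^ orderOf (Units.mk0 (om : ZMod p) hne) :
        (ZMod p)ˣ) : ZMod p) = ((1 : (ZMod p)ˣ) : ZMod p) := by
      rw [pow_orderOf_eq_one]
    rw [Units.val_pow_eq_pow_val, Units.val_mk0, Units.val_one] at h3
    rw [Nat.cast_pow, Nat.cast_one]
    exact h3
  rw [ZMod.natCast_eq_natCast_iff] at h2
  have h4 : om ^ orderOf (Units.mk0 (om : ZMod p) hne) % p = 1 % p := h2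
  rw [h4, Nat.mod_eq_of_lt (by omega)]

/-- conversely a primitive root passes the test -/
theorem test_of_orderOf {p om : ℕ} (hp : p.Prime) {g : (ZMod p)ˣ}
    (hg : (g : ZMod p) = (om : ZMod p)) (ho : orderOf g = p - 1) (e : ℕ) (he : 0 < e)
    (he2 : e < p - 1) : om ^ e % p ≠ 1 := by
  have : Fact p.Prime := ⟨hp⟩
  have hp2 := hp.two_le
  intro h
  have h1 : g ^ e = 1 := by
    ext
    rw [Units.val_pow_eq_pow_val, hg, Units.val_one, ← Nat.cast_pow]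
    have : ((om ^ e : ℕ) : ZMod p) = ((1 : ℕ) : ZMod p) := by
      rw [ZMod.natCast_eq_natCast_iff]
      show om ^ e % p = 1 % p
      rw [h, Nat.mod_eq_of_lt (by omega)]
    rw [this, Nat.cast_one]
  have := orderOf_dvd_of_pow_eq_one h1
  rw [ho] at this
  exact absurd (Nat.le_of_dvd he this) (by omega)

/-- trial division: `q ≥ 2` is prime iff no `r` with `2 ≤ r < q` divides it -/
theorem prime_iff_trial {q : ℕ} (hq : 2 ≤ q) : q.Prime ↔ ∀ r, 2 ≤ r → r < q → q % r ≠ 0 := by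
  constructor
  · intro h r h2 hr h0
    have := (Nat.dvd_prime h).mp (Nat.dvd_of_mod_eq_zero h0)
    omega
  · intro h
    rw [Nat.prime_def_lt]
    refine ⟨hq, fun m hm hd => ?_⟩
    by_contra h1
    have h0 : m ≠ 0 := by
      rintro rfl
      rw [Nat.zero_dvd] at hd
      omega
    exact h m (by omega) hm (Nat.mod_eq_zero_of_dvd hd)

end Vale.Agent.P338.D
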