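import Vale.Agent.P338.CoreSpecD

/-!
# Stage 2: the chirp identity in the prime field, size bounds, and the extraction of the payload
-/

namespace Vale.Agent.P338.D

open Finset

/-- one column: `x i` = payload of row `i` -/
def u1 (p om : ℕ) (x : ℕ → ℕ) (i : ℕ) : ℕ := T1 p om i * x i
def c1 (p om : ℕ) (x : ℕ → ℕ) (k : ℕ) : ℕ :=
  ∑ i ∈ range (p - 1), H1 p om (p - 1 + k - i) * u1 p om x i
def u2 (p om d : ℕ) (x : ℕ → ℕ) (k : ℕ) : ℕ := T2 p om k d * c1 p om x k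
def c2 (p om d : ℕ) (x : ℕ → ℕ) (j : ℕ) : ℕ :=
  ∑ k ∈ range (p - 1), H2 p om (p - 1 + j - k) * u2 p om d x k
def u3 (p om b d : ℕ) (x : ℕ → ℕ) (j : ℕ) : ℕ := T3 p om b j * c2 p om d x j

section ident

variable {p : ℕ} [hp : Fact p.Prime] (om : ℕ) (g : (ZMod p)ˣ)

theorem cast_pwm (hg : (g : ZMod p) = (om : ZMod p)) (e : ℤ) :
    ((pwm p om e : ℕ) : ZMod p) = ((g ^ e : (ZMod p)ˣ) : ZMod p) := by
  have hp2 := hp.out.two_le
  unfold pwm
  rw [ZMod.natCast_mod, Nat.cast_pow, ← hg, ← Units.val_pow_eq_pow_val]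
  congr 1
  have h1 : g ^ (p - 1) = 1 := by
    have := ZMod.units_pow_card_sub_one_eq_one p g
    exact this
  have hs : (0 : ℤ) < (p : ℤ) - 1 := by
    have : (2 : ℤ) ≤ p := by exact_mod_cast hp2
    omega
  have h2 : (((e % ((p : ℤ) - 1)).toNat : ℕ) : ℤ) = e % ((p : ℤ) - 1) :=
    Int.toNat_of_nonneg (Int.emod_nonneg _ hs.ne')
  rw [← zpow_natCast, h2]
  conv_rhs => rw [← Int.emod_add_mul_ediv e ((p : ℤ) - 1)]
  rw [zpow_add, zpow_mul]
  have h3 : g ^ ((p : ℤ) - 1) = 1 := by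
    have : ((p : ℤ) - 1) = ((p - 1 : ℕ) : ℤ) := by
      have : 1 ≤ p := by omega
      push_cast [this]; ring
    rw [this, zpow_natCast, h1]
  rw [h3, one_zpow, mul_one]

theorem tri2 (m : ℕ) : 2 * (((m * (m + 1) / 2 : ℕ)) : ℤ) = m * (m + 1) := by
  have h : 2 * (m * (m + 1) / 2) = m * (m + 1) :=
    Nat.mul_div_cancel' (Nat.even_mul_succ_self m).two_dvd
  exact_mod_cast h

theorem tri2' (i : ℕ) : 2 * (((i * (i - 1) / 2 : ℕ)) : ℤ) = i * (i - 1) := by
  cases i with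
  | zero => simp
  | succ i =>
    have h : 2 * ((i + 1) * (i + 1 - 1) / 2) = (i + 1) * i := by
      rw [Nat.add_sub_cancel, Nat.mul_comm (i + 1) i]
      exact Nat.mul_div_cancel' (Nat.even_mul_succ_self i).two_dvd
    have h2 : 2 * ((((i + 1) * (i + 1 - 1) / 2 : ℕ)) : ℤ) = (i + 1) * i := by exact_mod_cast h
    push_cast at h2 ⊢
    linarith

/-- the exponent identity -/
theorem exp_identity (s i j k d : ℕ) (hi : i ≤ s + k) (hk : k ≤ s + j) :
    -(((s + k - i) * (s + k - i + 1) / 2 : ℕ) : ℤ) + ((i * (i - 1) / 2 : ℕ) : ℤ)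
      + ((k * (d + 1) : ℕ) : ℤ) + (((s + j - k) * (s + j - k + 1) / 2 : ℕ) : ℤ)
      - ((j * (j + 1) / 2 : ℕ) : ℤ)
      = (s : ℤ) * (j + i - 2 * k) + k * ((i : ℤ) + d - j) := by
  have h1 := tri2 (s + k - i)
  have h2 := tri2 (s + j - k)
  have h3 := tri2 j
  have h4 := tri2' i
  have e1 : ((s + k - i : ℕ) : ℤ) = s + k - i := by push_cast [hi]; ring
  have e2 : ((s + j - k : ℕ) : ℤ) = s + j - k := by push_cast [hk]; ring
  rw [e1] at h1
  rw [e2] at h2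
  have h5 : ((k * (d + 1) : ℕ) : ℤ) = k * (d + 1) := by push_cast; ring
  rw [h5]
  have h6 : 2 * (-(((s + k - i) * (s + k - i + 1) / 2 : ℕ) : ℤ) + ((i * (i - 1) / 2 : ℕ) : ℤ)
      + (k : ℤ) * (d + 1) + (((s + j - k) * (s + j - k + 1) / 2 : ℕ) : ℤ)
      - ((j * (j + 1) / 2 : ℕ) : ℤ))
      = 2 * ((s : ℤ) * (j + i - 2 * k) + k * ((i : ℤ) + d - j)) := by
    linear_combination -h1 + h4 + h2 - h3
  linarith

/-- geometric sums of roots of unity -/
theorem sum_zpow (hord : orderOf g = p - 1) (t : ℤ) :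
    ∑ k ∈ range (p - 1), ((g ^ ((k : ℤ) * t) : (ZMod p)ˣ) : ZMod p)
      = if ((p : ℤ) - 1) ∣ t then -1 else 0 := by
  have hp2 := hp.out.two_le
  have hcast : ((p - 1 : ℕ) : ℤ) = (p : ℤ) - 1 := by
    have : 1 ≤ p := by omega
    push_cast [this]; ring
  have hterm : ∀ k : ℕ, ((g ^ ((k : ℤ) * t) : (ZMod p)ˣ) : ZMod p)
      = ((g ^ t : (ZMod p)ˣ) : ZMod p) ^ k := by
    intro k
    rw [mul_comm, zpow_mul, zpow_natCast, Units.val_pow_eq_pow_val]
  simp only [hterm]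
  by_cases ht : ((p : ℤ) - 1) ∣ t
  · rw [if_pos ht]
    have h1 : g ^ t = 1 := by
      rw [← orderOf_dvd_iff_zpow_eq_one, hord, hcast]; exact ht
    rw [h1]
    simp only [Units.val_one, one_pow, sum_const, card_range, nsmul_eq_mul, mul_one]
    have : ((p - 1 : ℕ) : ZMod p) = -1 := by
      have h : 1 ≤ p := by omega
      push_cast [h]
      simp
    exact this
  · rw [if_neg ht]
    have h1 : g ^ t ≠ 1 := by
      rw [Ne, ← orderOf_dvd_iff_zpow_eq_one, hord, hcast]; exact ht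
    have h2 : ((g ^ t : (ZMod p)ˣ) : ZMod p) - 1 ≠ 0 := by
      intro h
      apply h1
      ext
      simpa [sub_eq_zero] using h
    have h3 : (((g ^ t : (ZMod p)ˣ) : ZMod p) - 1) *
        ∑ k ∈ range (p - 1), ((g ^ t : (ZMod p)ˣ) : ZMod p) ^ k = 0 := by
      rw [mul_geom_sum]
      have : (g ^ t) ^ (p - 1) = 1 := ZMod.units_pow_card_sub_one_eq_one p _
      rw [← Units.val_pow_eq_pow_val, this]
      simp
    exact (mul_eq_zero.mp h3).resolve_left h2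

/-- **The chirp identity**: the third stage gives `De` times the payload of the row `i` with
`i + d ≡ j` modulo `s = p - 1`. -/
theorem cast_u3 (hg : (g : ZMod p) = (om : ZMod p)) (hord : orderOf g = p - 1)
    (b d j i : ℕ) (x : ℕ → ℕ) (hi : i < p - 1) (hij : ((p : ℤ) - 1) ∣ (i : ℤ) + d - j) :
    ((u3 p om b d x j : ℕ) : ZMod p) = ((p / 2 ^ (b + 1) * x i : ℕ) : ZMod p) := by
  have hp2 := hp.out.two_le
  have hcast : ((p - 1 : ℕ) : ℤ) = (p : ℤ) - 1 := by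
    have : 1 ≤ p := by omega
    push_cast [this]; ring
  have hone : ∀ e : ℤ, g ^ (((p : ℤ) - 1) * e) = 1 := by
    intro e
    rw [zpow_mul, ← hcast, zpow_natCast, ← hord, pow_orderOf_eq_one, one_zpow]
  have hm1 : ((p - 1 : ℕ) : ZMod p) = -1 := by
    have h : 1 ≤ p := by omega
    push_cast [h]
    simp
  have key : ((u3 p om b d x j : ℕ) : ZMod p)
      = -((p / 2 ^ (b + 1) : ℕ) : ZMod p) * ∑ i' ∈ range (p - 1), (x i' : ZMod p) *
        ∑ k ∈ range (p - 1), ((g ^ ((k : ℤ) * ((i' : ℤ) + d - j)) : (ZMod p)ˣ) : ZMod p) := by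
    unfold u3 c2 u2 c1 u1 T3 T2 T1 H1 H2
    rw [Nat.cast_mul, ZMod.natCast_mod, Nat.cast_mul, Nat.cast_mul, cast_pwm om g hg, hm1]
    simp only [Nat.cast_sum, Nat.cast_mul, cast_pwm om g hg]
    have e1 : ∀ a c : ZMod p, -1 * a * c = -a * c := by intro a c; ring
    rw [e1, mul_assoc]
    congr 1
    rw [Finset.mul_sum]
    simp only [Finset.mul_sum]
    rw [Finset.sum_comm]
    refine Finset.sum_congr rfl fun i' hi' => Finset.sum_congr rfl fun k hk => ?_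
    rw [mem_range] at hi' hk
    have hid := exp_identity (p - 1) i' j k d (by omega) (by omega)
    rw [hcast] at hid
    have h1 : g ^ ((k : ℤ) * ((i' : ℤ) + d - j)) = g ^ (-((j * (j + 1) / 2 : ℕ) : ℤ)) *
        (g ^ ((((p - 1 + j - k) * (p - 1 + j - k + 1) / 2 : ℕ) : ℤ)) *
          (g ^ (((k * (d + 1) : ℕ) : ℤ)) *
            (g ^ (-(((p - 1 + k - i') * (p - 1 + k - i' + 1) / 2 : ℕ) : ℤ)) *
              g ^ ((i' * (i' - 1) / 2 : ℕ) : ℤ)))) := by
      rw [← zpow_add, ← zpow_add, ← zpow_add, ← zpow_add]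
      have h2 : (-((j * (j + 1) / 2 : ℕ) : ℤ)) +
        ((((p - 1 + j - k) * (p - 1 + j - k + 1) / 2 : ℕ) : ℤ) +
          (((k * (d + 1) : ℕ) : ℤ) +
            (-(((p - 1 + k - i') * (p - 1 + k - i' + 1) / 2 : ℕ) : ℤ) +
              ((i' * (i' - 1) / 2 : ℕ) : ℤ))))
          = ((p : ℤ) - 1) * (j + i' - 2 * k) + k * ((i' : ℤ) + d - j) := by
        linear_combination hid
      rw [h2, zpow_add, hone, one_mul]
    rw [h1]
    push_cast
    ring
  rw [key]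
  simp only [sum_zpow g hord]
  rw [Finset.sum_eq_single i]
  · rw [if_pos hij]
    push_cast
    ring
  · intro i' hi' hne
    rw [mem_range] at hi'
    rw [if_neg, mul_zero]
    intro hdvd
    apply hne
    have h1 : ((p : ℤ) - 1) ∣ (i' : ℤ) - i := by
      have := dvd_sub hdvd hij
      have e : (i' : ℤ) + d - j - (i + d - j) = i' - i := by ring
      rwa [e] at this
    have h2 : (i' : ℤ) - i = 0 := by
      apply Int.eq_zero_of_abs_lt_dvd h1
      rw [abs_lt]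
      constructor <;> omega
    omega
  · intro h
    exact absurd (mem_range.mpr hi) h

end ident

/-! ### Extraction of the payload -/

/-- the residue `De * (2x+1)` is smaller than `p` -/
theorem De_mul_lt {p b x : ℕ} (hp : 0 < p) (hx : x < 2 ^ b) :
    p / 2 ^ (b + 1) * (2 * x + 1) < p := by
  have h1 : p / 2 ^ (b + 1) * 2 ^ (b + 1) ≤ p := Nat.div_mul_le_self _ _
  have h2 : 2 * x + 1 < 2 ^ (b + 1) := by rw [pow_succ]; omega
  rcases Nat.eq_zero_or_pos (p / 2 ^ (b + 1)) with h0 | h0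
  · rw [h0]; simpa using hp
  · calc p / 2 ^ (b + 1) * (2 * x + 1) < p / 2 ^ (b + 1) * 2 ^ (b + 1) :=
          Nat.mul_lt_mul_of_pos_left h2 h0
      _ ≤ p := h1

theorem extract_core {p B T De mu V q x : ℕ} (hp : 0 < p) (hT : 0 < T) (hx : x < B)
    (hDe1 : De * (2 * B) ≤ p) (hDe2 : p < De * (2 * B) + 2 * B) (hBp : 8 * (B * B) ≤ p)
    (hmu1 : mu * p ≤ B * T) (hmu2 : B * T < mu * p + p) (hV : 4 * V ≤ T)
    (hq : V = q * p + De * (2 * x + 1)) :
    (q * B + x) * T ≤ V * mu ∧ V * mu < (q * B + x + 1) * T := by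
  obtain ⟨Z, hZ⟩ : ∃ Z, Z = De * (2 * x + 1) * B := ⟨_, rfl⟩
  obtain ⟨xp, hxp⟩ : ∃ xp, xp = x * p := ⟨_, rfl⟩
  have hVBT : V * (B * T) = q * p * (B * T) + Z * T := by rw [hq, hZ]; ring
  constructor
  · have b0 : (2 * x + 1) * (2 * B) ≤ 4 * (B * B) := by
      have : (2 * x + 1) * (2 * B) ≤ (2 * B) * (2 * B) := Nat.mul_le_mul_right _ (by omega)
      calc _ ≤ _ := this
        _ = _ := by ring
    have b1 : (2 * x + 1) * p ≤ (2 * x + 1) * (De * (2 * B)) + (2 * x + 1) * (2 * B) := by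
      rw [← Nat.mul_add]; exact Nat.mul_le_mul_left _ hDe2.le
    have e1 : (2 * x + 1) * p = 2 * xp + p := by rw [hxp]; ring
    have e2 : (2 * x + 1) * (De * (2 * B)) = 2 * Z := by rw [hZ]; ring
    rw [e1, e2] at b1
    have b3 : 4 * xp + p ≤ 4 * Z := by omega
    have b4 : (4 * xp + p) * T ≤ 4 * Z * T := Nat.mul_le_mul_right _ b3
    have b5 : 4 * V * p ≤ T * p := Nat.mul_le_mul_right _ hV
    have a3 : xp * T + V * p ≤ Z * T := by
      have e3 : (4 * xp + p) * T = 4 * (xp * T) + T * p := by ring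
      have e4 : 4 * Z * T = 4 * (Z * T) := by ring
      have e5 : 4 * V * p = 4 * (V * p) := by ring
      rw [e3, e4] at b4
      rw [e5] at b5
      omega
    have a1 : V * (B * T) ≤ V * mu * p + V * p := by
      have := Nat.mul_le_mul_left V hmu2.le
      rwa [Nat.mul_add, ← Nat.mul_assoc V mu p] at this
    have h1 : (q * B + x) * T * p ≤ V * mu * p := by
      have e6 : (q * B + x) * T * p = q * p * (B * T) + xp * T := by rw [hxp]; ring
      rw [e6]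
      rw [hVBT] at a1
      omega
    exact Nat.le_of_mul_le_mul_right h1 hp
  · have a3 : Z < (x + 1) * p := by
      have c1 : (2 * x + 1) * (De * (2 * B)) ≤ (2 * x + 1) * p := Nat.mul_le_mul_left _ hDe1
      have e2 : (2 * x + 1) * (De * (2 * B)) = 2 * Z := by rw [hZ]; ring
      have e1 : (2 * x + 1) * p = 2 * xp + p := by rw [hxp]; ring
      have e3 : (x + 1) * p = xp + p := by rw [hxp]; ring
      rw [e1, e2] at c1
      rw [e3]
      omega
    have a4 : Z * T < (x + 1) * p * T := Nat.mul_lt_mul_of_pos_right a3 hT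
    have a1 : V * mu * p ≤ V * (B * T) := by
      rw [Nat.mul_assoc]; exact Nat.mul_le_mul_left _ hmu1
    have h1 : V * mu * p < (q * B + x + 1) * T * p := by
      have e6 : (q * B + x + 1) * T * p = q * p * (B * T) + (x + 1) * p * T := by ring
      rw [e6]
      rw [hVBT] at a1
      omega
    exact Nat.lt_of_mul_lt_mul_right h1

/-- **Extraction**: if `V ≡ De * (2x+1)` modulo `p`, `V` small, then the bits `W-b .. W-1` of
`V * (2^W / p)` are the payload `x`. -/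
theorem extract {p b W V x : ℕ} (hb : 2 ^ (2 * b + 3) ≤ p) (hx : x < 2 ^ b) (hW : b ≤ W)
    (hV : 4 * V ≤ 2 ^ (W - b)) (hmod : V % p = p / 2 ^ (b + 1) * (2 * x + 1)) :
    V * (2 ^ W / p) / 2 ^ (W - b) % 2 ^ b = x := by
  have hp : 0 < p := lt_of_lt_of_le (by positivity) hb
  have h2b : 2 ^ (b + 1) = 2 * 2 ^ b := by rw [pow_succ]; ring
  have hTW : 2 ^ W = 2 ^ b * 2 ^ (W - b) := by rw [← pow_add]; congr 1; omega
  have hq : V = V / p * p + p / 2 ^ (b + 1) * (2 * x + 1) := by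
    rw [← hmod, Nat.mul_comm (V / p)]; exact (Nat.div_add_mod V p).symm
  have hDe1 : p / 2 ^ (b + 1) * (2 * 2 ^ b) ≤ p := by
    rw [← h2b]; exact Nat.div_mul_le_self p (2 ^ (b + 1))
  have hDe2 : p < p / 2 ^ (b + 1) * (2 * 2 ^ b) + 2 * 2 ^ b := by
    rw [← h2b]; exact Nat.lt_div_mul_add (by positivity)
  have hBp : 8 * (2 ^ b * 2 ^ b) ≤ p := by
    have : 2 ^ (2 * b + 3) = 8 * (2 ^ b * 2 ^ b) := by ring
    omega
  have hmu1 : 2 ^ W / p * p ≤ 2 ^ b * 2 ^ (W - b) := by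
    rw [← hTW]; exact Nat.div_mul_le_self _ _
  have hmu2 : 2 ^ b * 2 ^ (W - b) < 2 ^ W / p * p + p := by
    rw [← hTW]; exact Nat.lt_div_mul_add hp
  obtain ⟨lo, hi⟩ := extract_core hp (by positivity) hx hDe1 hDe2 hBp hmu1 hmu2 hV hq
  have hdiv : V * (2 ^ W / p) / 2 ^ (W - b) = V / p * 2 ^ b + x := Nat.div_eq_of_lt_le lo hi
  rw [hdiv, Nat.mul_comm (V / p) (2 ^ b), Nat.mul_add_mod]
  exact Nat.mod_eq_of_lt hx

/-! ### Size bounds -/

section bounds

variable {p om l b : ℕ}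

theorem pwm_lt (hp : 0 < p) (e : ℤ) : pwm p om e < p := Nat.mod_lt _ hp
theorem T1_lt (hp : 0 < p) (i : ℕ) : T1 p om i < p := pwm_lt hp _
theorem T2_lt (hp : 0 < p) (k d : ℕ) : T2 p om k d < p := pwm_lt hp _
theorem T3_lt (hp : 0 < p) (j : ℕ) : T3 p om b j < p := Nat.mod_lt _ hp
theorem H1_lt (hp : 0 < p) (m : ℕ) : H1 p om m < p := pwm_lt hp _
theorem H2_lt (hp : 0 < p) (m : ℕ) : H2 p om m < p := pwm_lt hp _

/-- a sum of at most `2^l` products -/
theorem sum_lt' {n a c : ℕ} {f g : ℕ → ℕ} (hn : n ≤ 2 ^ l) (hf : ∀ i, f i < 2 ^ a)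
    (hg : ∀ i, g i < 2 ^ c) : ∑ i ∈ range n, f i * g i < 2 ^ (l + a + c) := by
  rcases Nat.eq_zero_or_pos n with h0 | h0
  · subst h0; simp
  · have h1 : ∀ i ∈ range n, f i * g i < 2 ^ (a + c) := by
      intro i _
      rw [pow_add]
      exact Nat.mul_lt_mul'' (hf i) (hg i)
    have h2 : ∑ i ∈ range n, f i * g i < ∑ _i ∈ range n, 2 ^ (a + c) :=
      Finset.sum_lt_sum_of_nonempty (by simpa using h0.ne') h1
    rw [sum_const, card_range, smul_eq_mul] at h2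
    calc _ < n * 2 ^ (a + c) := h2
      _ ≤ 2 ^ l * 2 ^ (a + c) := Nat.mul_le_mul_right _ hn
      _ = 2 ^ (l + a + c) := by rw [← pow_add]; congr 1; omega

theorem u1_lt (hp : 0 < p) (hl : p ≤ 2 ^ l) {x : ℕ → ℕ} (hx : ∀ i, x i < 2 ^ (b + 1)) (i : ℕ) :
    u1 p om x i < 2 ^ (l + (b + 1)) := by
  unfold u1
  rw [pow_add]
  exact Nat.mul_lt_mul'' (lt_of_lt_of_le (T1_lt hp i) hl) (hx i)

theorem c1_lt (hp : 0 < p) (hl : p ≤ 2 ^ l) {x : ℕ → ℕ} (hx : ∀ i, x i < 2 ^ (b + 1)) (k : ℕ) :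
    c1 p om x k < 2 ^ (3 * l + (b + 1)) := by
  have := sum_lt' (l := l) (n := p - 1) (a := l) (c := l + (b + 1))
    (f := fun i => H1 p om (p - 1 + k - i)) (g := u1 p om x) (by omega)
    (fun i => lt_of_lt_of_le (H1_lt hp _) hl) (fun i => u1_lt hp hl hx i)
  refine lt_of_lt_of_eq this ?_
  congr 1; omega

theorem u2_lt (hp : 0 < p) (hl : p ≤ 2 ^ l) {x : ℕ → ℕ} (hx : ∀ i, x i < 2 ^ (b + 1)) (d k : ℕ) :
    u2 p om d x k < 2 ^ (4 * l + (b + 1)) := by
  unfold u2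
  have : 4 * l + (b + 1) = l + (3 * l + (b + 1)) := by omega
  rw [this, pow_add 2 l]
  exact Nat.mul_lt_mul'' (lt_of_lt_of_le (T2_lt hp _ _) hl) (c1_lt hp hl hx k)

theorem c2_lt (hp : 0 < p) (hl : p ≤ 2 ^ l) {x : ℕ → ℕ} (hx : ∀ i, x i < 2 ^ (b + 1)) (d j : ℕ) :
    c2 p om d x j < 2 ^ (6 * l + (b + 1)) := by
  have := sum_lt' (l := l) (n := p - 1) (a := l) (c := 4 * l + (b + 1))
    (f := fun i => H2 p om (p - 1 + j - i)) (g := u2 p om d x) (by omega)
    (fun i => lt_of_lt_of_le (H2_lt hp _) hl) (fun i => u2_lt hp hl hx d i)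
  refine lt_of_lt_of_eq this ?_
  congr 1; omega

theorem u3_lt (hp : 0 < p) (hl : p ≤ 2 ^ l) {x : ℕ → ℕ} (hx : ∀ i, x i < 2 ^ (b + 1)) (d j : ℕ) :
    u3 p om b d x j < 2 ^ (7 * l + (b + 1)) := by
  unfold u3
  have : 7 * l + (b + 1) = l + (6 * l + (b + 1)) := by omega
  rw [this, pow_add 2 l]
  exact Nat.mul_lt_mul'' (lt_of_lt_of_le (T3_lt hp _) hl) (c2_lt hp hl hx d j)

end bounds

/-- **Summary for one column**: with `y i = 2 x_i + 1` the bits `W-b .. W-1` of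
`u3 * (2^W/p)` are `x` of the row `i ≡ j - d`. -/
theorem extract_u3 {p : ℕ} [hp : Fact p.Prime] {om : ℕ} {g : (ZMod p)ˣ} {b l W d j i : ℕ}
    (hg : (g : ZMod p) = (om : ZMod p)) (hord : orderOf g = p - 1)
    (hl : p ≤ 2 ^ l) (hbl : b + 1 ≤ l) (hW : 10 * l ≤ W) (hb : 2 ^ (2 * b + 3) ≤ p)
    {x : ℕ → ℕ} (hx : ∀ i, x i < 2 ^ b) (hi : i < p - 1)
    (hij : ((p : ℤ) - 1) ∣ (i : ℤ) + d - j) :
    u3 p om b d (fun i => 2 * x i + 1) j * (2 ^ W / p) / 2 ^ (W - b) % 2 ^ b = x i := by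
  have hp0 : 0 < p := hp.out.pos
  have hx' : ∀ i, 2 * x i + 1 < 2 ^ (b + 1) := by
    intro i; have := hx i; rw [pow_succ]; omega
  have hlt := u3_lt (om := om) hp0 hl hx' d j
  refine extract hb (hx i) (by omega) ?_ ?_
  · have h1 : 4 * u3 p om b d (fun i => 2 * x i + 1) j ≤ 2 ^ (7 * l + (b + 1) + 2) := by
      rw [pow_add _ _ 2]; omega
    refine h1.trans (Nat.pow_le_pow_right (by norm_num) ?_)
    omega
  · have h1 := cast_u3 om g hg hord b d j i (fun i => 2 * x i + 1) hi hij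
    rw [ZMod.natCast_eq_natCast_iff] at h1
    rw [h1]
    exact Nat.mod_eq_of_lt (De_mul_lt hp0 (hx i))

end Vale.Agent.P338.D
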