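import Vale.Agent.P338.H373.HalfGlue
import Vale.Agent.P338.H933.Embed

/-!
# Stage 3: one machine made of two multiplying machines

`combine`: if `A` and `A0` multiply then some multiplying machine runs `A` on operands with an even
number of bits and `A0` on operands with an odd number of bits.
-/

set_option linter.unusedSectionVars false

namespace Vale.Agent.P338.H930

open Function (update)
open Vale.Agent.P338 Vale.Agent.P338.H373

section glue

variable {H Y Z : Type} [Finite H] [DecidableEq H] [Finite Y] [DecidableEq Y] [Finite Z]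

/-- parse, multiply, reverse -/
def mainG (P : Prog (H ⊕ Y) (Bool ⊕ Z)) (X Yr O : H) : Prog (H ⊕ Y) (Bool ⊕ Z) :=
  .seq (parseP X O Yr) (.seq P (.flip (.inl O) (.inl X)))

theorem mainG_runs {P : Prog (H ⊕ Y) (Bool ⊕ Z)} {X Yr O : H}
    (hXY : X ≠ Yr) (hXO : X ≠ O) (hYO : Yr ≠ O) {n c : ℕ} (z : Z) {x y : List Bool}
    (hy : y.length = n)
    (hP : LRuns P (update (update (fun _ => []) X x.reverse) Yr y.reverse)
      (update (fun _ => []) O (lbits (2 * n) (val x * val y))) c) :
    ∃ s1, Runs (mainG P X Yr O) (update (fun _ => []) (.inl X)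
        (y.reverse.map Sum.inl ++ (Sum.inr z) :: x.reverse.map Sum.inl)) s1 (c + 8 * n + 4) ∧
      s1 (.inl X) = (bin (2 * n) (val x * val y)).map Sum.inl := by
  have h1 := parse_runs (Y := Y) (Γ := Bool) hXO hXY hYO.symm z x.reverse y.reverse
  have hOX : (Sum.inl O : H ⊕ Y) ≠ Sum.inl X := by simpa using hXO.symm
  have h2 := Runs.flip hOX (liftStore (update (fun _ => []) O (lbits (2 * n) (val x * val y)))
    (fun _ : Y => ([] : List (Bool ⊕ Z))))
  refine ⟨_, (h1.seq (Runs.seq hP h2)).weaken ?_, ?_⟩
  · simp only [liftStore, Function.update_self, List.length_map, List.length_reverse, hy]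
    rw [_root_.Vale.Agent.P338.Num.lbits_length]
    omega
  · rw [Function.update_self]
    simp only [liftStore, Function.update_self, Function.update_of_ne hXO, List.map_nil,
      List.append_nil]
    rw [← List.map_reverse, ← Sim.bin_reverse, List.reverse_reverse]

/-- **A program for products gives a machine that multiplies.** -/
theorem machine_of_progG (z : Z) (P : Prog (H ⊕ Y) (Bool ⊕ Z)) (X Yr O : H)
    (hXY : X ≠ Yr) (hXO : X ≠ O) (hYO : Yr ≠ O) (cost : ℕ → ℕ)
    (hP : ∀ n, 1 ≤ n → ∀ xl yl : List Bool, xl.length = n → yl.length = n →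
      LRuns P (update (update (fun _ => []) X xl) Yr yl)
        (update (fun _ => []) O (lbits (2 * n) (lval xl * lval yl))) (cost n)) :
    ∃ A2 : Machine, Multiplies A2 ∧ ∀ n, 1 ≤ n → mulTime A2 n ≤ 2 * (cost n + 12 * n + 6) := by
  let _ : Fintype (H ⊕ Y) := Fintype.ofFinite _
  have h := mulMachine_multiplies (mainG P X Yr O) (.inl X) (.inl X) Sum.inl
    (Sum.inr z) decL (fun b => rfl) (fun n => cost n + 8 * n + 4) (by
      intro n hn x y hx hy
      have h1 := hP n hn x.reverse y.reverse (by rw [List.length_reverse, hx])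
        (by rw [List.length_reverse, hy])
      have e1 : lval x.reverse = val x := by rw [← Sim.val_reverse, List.reverse_reverse]
      have e2 : lval y.reverse = val y := by rw [← Sim.val_reverse, List.reverse_reverse]
      rw [e1, e2] at h1
      exact mainG_runs hXY hXO hYO _ hy h1)
  exact ⟨_, h.1, fun n hn => (h.2 n hn).trans (by omega)⟩

end glue

section embed

variable {R Y Y' Γ Z Z' : Type}

/-- the first summand of the auxiliary stacks and symbols -/
def embL : Emb (R ⊕ Y) (R ⊕ (Y ⊕ Y')) (Γ ⊕ Z) (Γ ⊕ (Z ⊕ Z')) where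
  reg := Sum.map id Sum.inl
  regInv := fun r => match r with
    | .inl r => some (.inl r)
    | .inr (.inl y) => some (.inr y)
    | .inr (.inr _) => none
  reg_inv := by rintro (r | y) <;> rfl
  reg_eq := by rintro (r | y | y) r' h <;> simp at h <;> subst h <;> rfl
  sym := Sum.map id Sum.inl
  symInv := fun r => match r with
    | .inl r => some (.inl r)
    | .inr (.inl y) => some (.inr y)
    | .inr (.inr _) => none
  sym_inv := by rintro (r | y) <;> rfl

/-- the second summand of the auxiliary stacks and symbols -/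
def embR : Emb (R ⊕ Y') (R ⊕ (Y ⊕ Y')) (Γ ⊕ Z') (Γ ⊕ (Z ⊕ Z')) where
  reg := Sum.map id Sum.inr
  regInv := fun r => match r with
    | .inl r => some (.inl r)
    | .inr (.inr y) => some (.inr y)
    | .inr (.inl _) => none
  reg_inv := by rintro (r | y) <;> rfl
  reg_eq := by rintro (r | y | y) r' h <;> simp at h <;> subst h <;> rfl
  sym := Sum.map id Sum.inr
  symInv := fun r => match r with
    | .inl r => some (.inl r)
    | .inr (.inr y) => some (.inr y)
    | .inr (.inl _) => none
  sym_inv := by rintro (r | y) <;> rfl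

theorem LRuns.embL {p : Prog (R ⊕ Y) (Γ ⊕ Z)} {s s' : Store R Γ} {c : ℕ} (h : LRuns p s s' c) :
    LRuns (p.emb (embL (Y' := Y') (Z' := Z'))) s s' c := by
  refine Runs.emb _ h ?_ ?_ ?_
  · rintro (r | y) <;> simp [liftStore, H930.embL]
  · rintro (r | y) <;> simp [liftStore, H930.embL]
  · rintro (r | y | y) hr <;> simp [liftStore, H930.embL] at hr ⊢

theorem LRuns.embR {p : Prog (R ⊕ Y') (Γ ⊕ Z')} {s s' : Store R Γ} {c : ℕ} (h : LRuns p s s' c) :
    LRuns (p.emb (embR (Y := Y) (Z := Z))) s s' c := by
  refine Runs.emb _ h ?_ ?_ ?_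
  · rintro (r | y) <;> simp [liftStore, H930.embR]
  · rintro (r | y) <;> simp [liftStore, H930.embR]
  · rintro (r | y | y) hr <;> simp [liftStore, H930.embR] at hr ⊢

theorem LRuns.peek [DecidableEq R] [DecidableEq Y] {f : Option (Γ ⊕ Z) → Prog (R ⊕ Y) (Γ ⊕ Z)}
    {r : R} {s s' : Store R Γ} {c : ℕ}
    (h : LRuns (f ((s r).head?.map Sum.inl)) s s' c) : LRuns (.peek (.inl r) f) s s' (c + 1) := by
  refine Runs.peek ?_
  have e : (liftStore s (fun _ : Y => ([] : List (Γ ⊕ Z))) (Sum.inl r)).head? =
      (s r).head?.map Sum.inl := by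
    simp [liftStore]
  rw [e]
  exact h

end embed

/-! ### The dispatcher -/

/-- base registers of the dispatcher -/
inductive CR : Type
  | X | Yr | O | T | F
  deriving DecidableEq

instance : Finite CR := by
  refine Finite.of_injective (β := Fin 5) (fun r => match r with
    | .X => 0 | .Yr => 1 | .O => 2 | .T => 3 | .F => 4) ?_
  intro a b h
  cases a <;> cases b <;> first | rfl | (simp at h)

/-- states of the dispatcher -/
def cst (x y o t f : List Bool) : Store CR Bool
  | .X => x
  | .Yr => y
  | .O => o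
  | .T => t
  | .F => f

/-- one step of the parity computation -/
def parStep : Prog CR Bool :=
  .peek .F fun b => .seq (.mv .Yr .T) (.seq (.pop .F) (.push .F (!(b.getD false))))

/-- `F` gets the parity of the length of `Yr` -/
def parity : Prog CR Bool :=
  .seq (.push .F false) (.seq (.whileNE .Yr parStep) (.flip .T .Yr))

theorem parStep_runs (x o t : List Bool) (a : Bool) (y : List Bool) (b : Bool) :
    Runs parStep (cst x (a :: y) o t [b]) (cst x y o (a :: t) [!b]) 4 := by
  have h1 : Runs (.mv CR.Yr CR.T) (cst x (a :: y) o t [b]) (cst x y o (a :: t) [b]) 1 := by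
    refine (Runs.mv_cons (by decide) (show cst x (a :: y) o t [b] CR.Yr = a :: y from rfl)).conv
      ?_ le_rfl
    funext r; cases r <;> rfl
  have h2 : Runs (.pop CR.F) (cst x y o (a :: t) [b]) (cst x y o (a :: t) []) 1 := by
    refine (Runs.pop CR.F _).conv ?_ le_rfl
    funext r; cases r <;> rfl
  have h3 : Runs (.push CR.F !b) (cst x y o (a :: t) []) (cst x y o (a :: t) [!b]) 1 := by
    refine (Runs.push CR.F _ _).conv ?_ le_rfl
    funext r; cases r <;> rfl
  exact Runs.peek (h1.seq (h2.seq h3))

theorem parLoop_runs (x o : List Bool) (y t : List Bool) (b : Bool) :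
    Runs (.whileNE .Yr parStep) (cst x y o t [b])
      (cst x [] o (y.reverse ++ t) [xor b (y.length % 2 == 1)]) (5 * y.length + 1) := by
  induction y generalizing t b with
  | nil =>
    refine (Runs.whileNE_nil rfl).conv ?_ le_rfl
    simp
  | cons a y ih =>
    refine (Runs.whileNE_cons (show cst x (a :: y) o t [b] CR.Yr = a :: y from rfl)
      (parStep_runs x o t a y b) (ih (a :: t) (!b))).conv ?_ ?_
    · congr 1
      · simp
      · congr 1
        have : (y.length + 1) % 2 = 1 - y.length % 2 := by omega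
        have h2 : y.length % 2 = 0 ∨ y.length % 2 = 1 := by omega
        simp only [List.length_cons, this]
        rcases h2 with h | h <;> simp [h]
    · simp only [List.length_cons]; omega

theorem parity_runs (x o : List Bool) (y : List Bool) :
    Runs parity (cst x y o [] []) (cst x y o [] [y.length % 2 == 1]) (7 * y.length + 3) := by
  have h1 : Runs (.push CR.F false) (cst x y o [] []) (cst x y o [] [false]) 1 := by
    refine (Runs.push CR.F _ _).conv ?_ le_rfl
    funext r; cases r <;> rfl
  have h2 := parLoop_runs x o y [] false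
  have h3 : Runs (.flip CR.T CR.Yr) (cst x [] o (y.reverse ++ []) [xor false (y.length % 2 == 1)])
      (cst x y o [] [y.length % 2 == 1]) (2 * y.length + 1) := by
    refine (Runs.flip (by decide) _).conv ?_ ?_
    · funext r; cases r <;> simp [cst, Function.update]
    · simp [cst]
  exact (h1.seq (h2.seq h3)).weaken (by omega)

/-- the dispatcher -/
def dispatch (A A0 : Machine) :
    Prog (CR ⊕ (Sim.AReg A ⊕ Sim.AReg A0)) (Bool ⊕ (Sim.ASym A ⊕ Sim.ASym A0)) :=
  .seq (parity.lift _ _) <|
    .peek (.inl .F) fun b => .seq ((Prog.pop .F : Prog CR Bool).lift _ _) <|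
      match b with
      | some (.inl true) => (callP A0 CR.X CR.Yr CR.O).emb embR
      | _ => (callP A CR.X CR.Yr CR.O).emb embL

theorem dispatch_runs {A A0 : Machine} (hA : Multiplies A) (hA0 : Multiplies A0) {n : ℕ}
    (hn : 1 ≤ n) (x y : List Bool) (hx : x.length = n) (hy : y.length = n) :
    LRuns (dispatch A A0) (cst x y [] [] []) (cst [] [] (mulL n x y) [] [])
      (6 * (if n % 2 = 1 then mulTime A0 n else mulTime A n) + 50 * n + 5) := by
  have h1 : LRuns (parity.lift (Sim.AReg A ⊕ Sim.AReg A0) (Sim.ASym A ⊕ Sim.ASym A0))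
      (cst x y [] [] []) (cst x y [] [] [y.length % 2 == 1]) (7 * y.length + 3) :=
    LRuns.base (parity_runs x [] y)
  have h2 : ∀ b : Bool, LRuns ((Prog.pop .F : Prog CR Bool).lift
      (Sim.AReg A ⊕ Sim.AReg A0) (Sim.ASym A ⊕ Sim.ASym A0))
      (cst x y [] [] [b]) (cst x y [] [] []) 1 := by
    intro b
    refine LRuns.base ((Runs.pop CR.F _).conv ?_ le_rfl)
    funext r; cases r <;> rfl
  have h3 : LRuns ((callP A CR.X CR.Yr CR.O).emb (embL (Y' := Sim.AReg A0) (Z' := Sim.ASym A0)))
      (cst x y [] [] []) (cst [] [] (mulL n x y) [] []) (6 * mulTime A n + 40 * n) := by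
    refine LRuns.embL ((LRuns.callP hA (x := CR.X) (y := CR.Yr) (out := CR.O) (by decide)
      (by decide) (by decide) hn hx hy rfl).conv ?_ le_rfl)
    funext r; cases r <;> rfl
  have h4 : LRuns ((callP A0 CR.X CR.Yr CR.O).emb (embR (Y := Sim.AReg A) (Z := Sim.ASym A)))
      (cst x y [] [] []) (cst [] [] (mulL n x y) [] []) (6 * mulTime A0 n + 40 * n) := by
    refine LRuns.embR ((LRuns.callP hA0 (x := CR.X) (y := CR.Yr) (out := CR.O) (by decide)
      (by decide) (by decide) hn hx hy rfl).conv ?_ le_rfl)
    funext r; cases r <;> rfl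
  refine (h1.seq (c₂ := 6 * (if n % 2 = 1 then mulTime A0 n else mulTime A n) + 40 * n + 2)
    ?_).weaken (by rw [hy]; omega)
  rw [hy]
  rcases Nat.mod_two_eq_zero_or_one n with h | h
  · have e : (n % 2 == 1) = false := by simp [h]
    rw [e, if_neg (by omega)]
    exact (LRuns.peek ((h2 false).seq h3)).weaken (by omega)
  · have e : (n % 2 == 1) = true := by simp [h]
    rw [e, if_pos h]
    exact (LRuns.peek ((h2 true).seq h4)).weaken (by omega)

/-- **Two machines in one**: even sizes go to `A`, odd sizes to `A0`. -/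
theorem combine {A A0 : Machine} (hA : Multiplies A) (hA0 : Multiplies A0) :
    ∃ A1 : Machine, Multiplies A1 ∧
      (∀ n, 1 ≤ n → n % 2 = 0 → mulTime A1 n ≤ 200 * mulTime A n) ∧
      (∀ n, 1 ≤ n → n % 2 = 1 → mulTime A1 n ≤ 200 * mulTime A0 n) := by
  obtain ⟨A1, h1, h2⟩ := machine_of_progG (Sum.inl (.cell .blank)) (dispatch A A0) CR.X CR.Yr CR.O
    (by decide) (by decide) (by decide)
    (fun n => 6 * (if n % 2 = 1 then mulTime A0 n else mulTime A n) + 50 * n + 5) (by
      intro n hn xl yl hx hy
      have h1 := dispatch_runs hA hA0 hn xl yl hx hy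
      have e1 : cst xl yl [] [] [] = update (update (fun _ => []) CR.X xl) CR.Yr yl := by
        funext r; cases r <;> rfl
      have e2 : cst [] [] (mulL n xl yl) [] [] =
          update (fun _ => []) CR.O (lbits (2 * n) (lval xl * lval yl)) := by
        funext r; cases r <;> rfl
      rwa [e1, e2] at h1)
  refine ⟨A1, h1, fun n hn h => ?_, fun n hn h => ?_⟩
  · have h3 := h2 n hn
    have h4 := hA.le_mulTime n
    rw [if_neg (by omega)] at h3
    omega
  · have h3 := h2 n hn
    have h4 := hA0.le_mulTime n
    rw [if_pos h] at h3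
    omega

end Vale.Agent.P338.H930
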