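import Vale.Agent.P338.H930.Combine
import Vale.Agent.P338.H763.HalfMain
import Vale.Agent.P338.H933.AnalysisD

/-!
# Stage 3: multiplications of size exactly `N + s`, two machines
-/

namespace Vale.Agent.P338

/-- Iterated halving. -/
theorem pow_half (k : ℕ) : ∀ {A : Machine}, Multiplies A → ∃ A2 : Machine, Multiplies A2 ∧
    ∃ K : ℕ, ∀ m, 1 ≤ m → mulTime A2 m ≤ K * mulTime A ((m + (2 ^ k - 1)) / 2 ^ k) := by
  induction k with
  | zero =>
    intro A hA
    exact ⟨A, hA, 1, fun m _ => by simp⟩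
  | succ k ih =>
    intro A hA
    obtain ⟨A1, h1, K1, hK1⟩ := half hA
    obtain ⟨A2, h2, K2, hK2⟩ := ih h1
    refine ⟨A2, h2, K2 * K1, fun m hm => ?_⟩
    have hp : 0 < 2 ^ k := by positivity
    have h3 : 1 ≤ (m + (2 ^ k - 1)) / 2 ^ k := by
      rw [Nat.le_div_iff_mul_le hp]
      omega
    have h4 := hK1 _ h3
    have e : ((m + (2 ^ k - 1)) / 2 ^ k + 1) / 2 = (m + (2 ^ (k + 1) - 1)) / 2 ^ (k + 1) := by
      rw [← Nat.add_div_right _ hp, Nat.div_div_eq_div_mul, pow_succ]
      congr 1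
      omega
    rw [e] at h4
    calc mulTime A2 m ≤ K2 * mulTime A1 ((m + (2 ^ k - 1)) / 2 ^ k) := hK2 m hm
      _ ≤ K2 * (K1 * mulTime A ((m + (2 ^ (k + 1) - 1)) / 2 ^ (k + 1))) :=
          Nat.mul_le_mul_left _ h4
      _ = K2 * K1 * mulTime A ((m + (2 ^ (k + 1) - 1)) / 2 ^ (k + 1)) := by ring

/-- Multiplication of `2^k * n` bit numbers by calls of size `n`. -/
theorem exact_half (k : ℕ) {A : Machine} (hA : Multiplies A) : ∃ A2 : Machine, Multiplies A2 ∧
    ∃ K : ℕ, ∀ n, 1 ≤ n → mulTime A2 (2 ^ k * n) ≤ K * mulTime A n := by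
  obtain ⟨A2, h1, K, h2⟩ := pow_half k hA
  refine ⟨A2, h1, K, fun n hn => ?_⟩
  have hp : 0 < 2 ^ k := by positivity
  have h3 := h2 (2 ^ k * n) (Nat.mul_pos hp hn)
  have e : (2 ^ k * n + (2 ^ k - 1)) / 2 ^ k = n := by
    rw [Nat.mul_add_div hp, Nat.div_eq_of_lt (by omega), Nat.add_zero]
  rwa [e] at h3

/-- The transfer inequality with multiplications of size exactly `N + s`. -/
theorem transfer_one {k : ℕ} (h : Transfer (2 ^ k)) : Transfer 1 := by
  intro A hA s
  obtain ⟨A2, h1, K2, h2⟩ := exact_half k hA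
  obtain ⟨B, hB, K, hK⟩ := h A2 h1 (2 ^ k * s)
  refine ⟨B, hB, max K 0 * (K2 + 1), fun N hN u => ?_⟩
  have h3 := hK N hN u
  rw [← Nat.mul_add] at h3
  have h4 := h2 (N + s) (by omega)
  have h4' : (mulTime A2 (2 ^ k * (N + s)) : ℝ) ≤ K2 * mulTime A (N + s) := by
    exact_mod_cast h4
  rw [one_mul]
  have hl : 0 ≤ (N : ℝ) * Real.log N / 2 ^ u := by
    have := Real.log_natCast_nonneg N
    positivity
  have h5 : 0 ≤ ((u : ℝ) + 1) * mulTime A2 (2 ^ k * (N + s)) + N * Real.log N / 2 ^ u := by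
    positivity
  calc (wordTime B N : ℝ)
      ≤ K * ((u + 1) * mulTime A2 (2 ^ k * (N + s)) + N * Real.log N / 2 ^ u) := h3
    _ ≤ max K 0 * ((u + 1) * mulTime A2 (2 ^ k * (N + s)) + N * Real.log N / 2 ^ u) :=
        mul_le_mul_of_nonneg_right (le_max_left _ _) h5
    _ ≤ max K 0 * ((K2 + 1) * ((u + 1) * mulTime A (N + s) + N * Real.log N / 2 ^ u)) := by
        apply mul_le_mul_of_nonneg_left _ (le_max_right _ _)
        have h6 : ((u : ℝ) + 1) * mulTime A2 (2 ^ k * (N + s)) ≤
            (u + 1) * (K2 * mulTime A (N + s)) :=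
          mul_le_mul_of_nonneg_left h4' (by positivity)
        have h7 : (0 : ℝ) ≤ (u + 1) * mulTime A (N + s) := by positivity
        have h8 : (0 : ℝ) ≤ K2 * (N * Real.log N / 2 ^ u) := by positivity
        nlinarith
    _ = max K 0 * (K2 + 1) * ((u + 1) * mulTime A (N + s) + N * Real.log N / 2 ^ u) := by ring

/-- The sharp transfer inequality for two machines, size exactly `N + s`: `A` is called `O(1)`
times and `A0` is called `O(N / log N)` times. -/
def TransferTwo : Prop :=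
  ∀ A A0 : Machine, Multiplies A → Multiplies A0 → ∀ s : ℕ, ∃ B : Machine, TransposesAll B ∧
    ∃ (K : ℝ) (W : ℕ → ℕ),
      (∀ N : ℕ, 3 ≤ N → 1 ≤ W N ∧ (W N : ℝ) ≤ K * Real.log N) ∧
      ∀ N : ℕ, 3 ≤ N → (wordTime B N : ℝ) ≤
        K * (mulTime A (N + s) + N / Real.log N * mulTime A0 (W N) +
          N * Real.log (Real.log N))

/-- The same with `W` odd. -/
theorem transferTwo_odd {k : ℕ} (h : TransferD (2 ^ (k + 1))) {A A0 : Machine}
    (hA : Multiplies A) (hA0 : Multiplies A0) (s : ℕ) : ∃ B : Machine, TransposesAll B ∧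
    ∃ (K : ℝ) (W : ℕ → ℕ),
      (∀ N : ℕ, 3 ≤ N → 1 ≤ W N ∧ W N % 2 = 1 ∧ (W N : ℝ) ≤ K * Real.log N) ∧
      ∀ N : ℕ, 3 ≤ N → (wordTime B N : ℝ) ≤
        K * (mulTime A (N + s) + N / Real.log N * mulTime A0 (W N) +
          N * Real.log (Real.log N)) := by
  obtain ⟨A2, h1, K2, h2⟩ := exact_half (k + 1) hA
  obtain ⟨A1, h3, h4, h5⟩ := H930.combine h1 hA0
  obtain ⟨B, hB, K, W, hW, hK⟩ := h A1 h3 (2 ^ (k + 1) * s)
  refine ⟨B, hB, max K 0 * (200 * (K2 + 1)), W, fun N hN => ?_, fun N hN => ?_⟩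
  · obtain ⟨e1, e2, e3⟩ := hW N hN
    refine ⟨e1, e2, e3.trans ?_⟩
    have hl := log_pos_of_three_le hN
    apply mul_le_mul_of_nonneg_right _ (by linarith)
    have : (0 : ℝ) ≤ K2 := Nat.cast_nonneg _
    have h6 : 0 ≤ max K 0 := le_max_right _ _
    have h7 : K ≤ max K 0 := le_max_left _ _
    nlinarith
  · obtain ⟨e1, e2, _⟩ := hW N hN
    have hl := log_pos_of_three_le hN
    have hll : 0 < Real.log (Real.log N) := Real.log_pos hl
    have h6 := hK N hN
    rw [← Nat.mul_add] at h6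
    have h7 : (mulTime A1 (2 ^ (k + 1) * (N + s)) : ℝ) ≤ 200 * (K2 * mulTime A (N + s)) := by
      have e : 2 ^ (k + 1) * (N + s) % 2 = 0 := by
        rw [pow_succ, Nat.mul_assoc, Nat.mul_left_comm, Nat.mul_mod_right]
      have e' : 1 ≤ 2 ^ (k + 1) * (N + s) := Nat.mul_pos (by positivity) (by omega)
      have := (h4 _ e' e).trans (Nat.mul_le_mul_left 200 (h2 (N + s) (by omega)))
      exact_mod_cast this
    have h8 : (mulTime A1 (W N) : ℝ) ≤ 200 * mulTime A0 (W N) := by
      exact_mod_cast h5 (W N) e1 e2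
    have h9 : (0 : ℝ) ≤ N / Real.log N := by positivity
    have h10 : 0 ≤ (mulTime A1 (2 ^ (k + 1) * (N + s)) : ℝ) + N / Real.log N * mulTime A1 (W N) +
        N * Real.log (Real.log N) := by positivity
    calc (wordTime B N : ℝ) ≤ _ := h6
      _ ≤ max K 0 * (mulTime A1 (2 ^ (k + 1) * (N + s)) + N / Real.log N * mulTime A1 (W N) +
          N * Real.log (Real.log N)) := mul_le_mul_of_nonneg_right (le_max_left _ _) h10
      _ ≤ max K 0 * (200 * (K2 + 1) * (mulTime A (N + s) + N / Real.log N * mulTime A0 (W N) +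
          N * Real.log (Real.log N))) := by
          apply mul_le_mul_of_nonneg_left _ (le_max_right _ _)
          have g1 : N / Real.log N * mulTime A1 (W N) ≤
              200 * (N / Real.log N * mulTime A0 (W N)) := by
            calc N / Real.log N * mulTime A1 (W N)
                ≤ N / Real.log N * (200 * mulTime A0 (W N)) := mul_le_mul_of_nonneg_left h8 h9
              _ = 200 * (N / Real.log N * mulTime A0 (W N)) := by ring
          have g2 : (0 : ℝ) ≤ N / Real.log N * mulTime A0 (W N) := by positivity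
          have g3 : (0 : ℝ) ≤ N * Real.log (Real.log N) := by positivity
          have g4 : (0 : ℝ) ≤ mulTime A (N + s) := Nat.cast_nonneg _
          have g5 : (0 : ℝ) ≤ K2 := Nat.cast_nonneg _
          have g6 : (0 : ℝ) ≤ K2 * (N / Real.log N * mulTime A0 (W N)) := mul_nonneg g5 g2
          have g7 : (0 : ℝ) ≤ K2 * (N * Real.log (Real.log N)) := mul_nonneg g5 g3
          nlinarith
      _ = max K 0 * (200 * (K2 + 1)) * (mulTime A (N + s) + N / Real.log N * mulTime A0 (W N) +
          N * Real.log (Real.log N)) := by ring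

theorem transferTwo {k : ℕ} (h : TransferD (2 ^ (k + 1))) : TransferTwo := by
  intro A A0 hA hA0 s
  obtain ⟨B, hB, K, W, hW, hK⟩ := transferTwo_odd h hA hA0 s
  exact ⟨B, hB, K, W, fun N hN => ⟨(hW N hN).1, (hW N hN).2.2⟩, hK⟩

theorem transferD_one {k : ℕ} (h : TransferD (2 ^ (k + 1))) : TransferD 1 := by
  intro A hA s
  obtain ⟨B, hB, K, W, hW, hK⟩ := transferTwo_odd h hA hA s
  exact ⟨B, hB, K, W, hW, by simpa only [one_mul] using hK⟩

/-- Regular time bounds, size exactly `N + s`. -/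
theorem regular_one {k : ℕ} (h : TransferD (2 ^ (k + 1))) {A : Machine} (hA : Multiplies A)
    (M : ℕ → ℝ) (hM : ∀ n, 1 ≤ n → (mulTime A n : ℝ) ≤ M n)
    (hmono : ∀ m n : ℕ, 1 ≤ m → m ≤ n → M m / m ≤ M n / n) (s : ℕ) :
    ∃ B : Machine, TransposesAll B ∧ ∃ K : ℝ, ∀ N : ℕ, 3 ≤ N →
      (wordTime B N : ℝ) ≤ K * (M (N + s) + N * Real.log (Real.log N)) := by
  have := regular_of_transferD le_rfl (transferD_one h) hA M hM hmono s
  simpa only [one_mul] using this

/-- With a machine `A0` of time `O(n log n)` for the small products: no regularity of `A`. -/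
theorem anyMachine_of_nlogn (h : TransferTwo) {A A0 : Machine} (hA : Multiplies A)
    (hA0 : Multiplies A0) {c : ℝ} (hc : ∀ n : ℕ, 2 ≤ n → (mulTime A0 n : ℝ) ≤ c * (n * Real.log n))
    (s : ℕ) :
    ∃ B : Machine, TransposesAll B ∧ ∃ K : ℝ, ∀ N : ℕ, 3 ≤ N →
      (wordTime B N : ℝ) ≤ K * (mulTime A (N + s) + N * Real.log (Real.log N)) := by
  obtain ⟨B, hB, K, W, hW, hK⟩ := h A A0 hA hA0 s
  set K₁ : ℝ := max K 1 with hK₁
  have hK₁1 : 1 ≤ K₁ := le_max_right _ _
  have hKK₁ : K ≤ K₁ := le_max_left _ _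
  set c₁ : ℝ := max c 0 + mulTime A0 1 with hc₁
  have hc₁0 : 0 ≤ c₁ := add_nonneg (le_max_right _ _) (Nat.cast_nonneg _)
  have hsmall : ∀ n : ℕ, 1 ≤ n → (mulTime A0 n : ℝ) ≤ c₁ * (n * (1 + Real.log n)) := by
    intro n hn
    have hn1 : (1 : ℝ) ≤ n := by exact_mod_cast hn
    have hl : 0 ≤ Real.log n := Real.log_natCast_nonneg n
    rcases Nat.lt_or_ge 1 n with h1 | h1
    · have h2 := hc n h1
      have h3 : c * (n * Real.log n) ≤ max c 0 * (n * (1 + Real.log n)) := by
        calc c * (n * Real.log n) ≤ max c 0 * (n * Real.log n) :=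
              mul_le_mul_of_nonneg_right (le_max_left _ _) (by positivity)
          _ ≤ max c 0 * (n * (1 + Real.log n)) := by
              apply mul_le_mul_of_nonneg_left _ (le_max_right _ _)
              apply mul_le_mul_of_nonneg_left _ (by positivity)
              linarith
      have h4 : (0 : ℝ) ≤ mulTime A0 1 * (n * (1 + Real.log n)) := by positivity
      rw [hc₁, add_mul]
      linarith
    · have e : n = 1 := by omega
      subst e
      simp only [Nat.cast_one, Real.log_one, add_zero, mul_one]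
      rw [hc₁]
      have : 0 ≤ max c 0 := le_max_right _ _
      linarith
  have hlog3 : 1 < Real.log (3 : ℕ) := log_pos_of_three_le le_rfl
  have hll3 : 0 < Real.log (Real.log (3 : ℕ)) := Real.log_pos hlog3
  set D : ℝ := (1 + Real.log K₁) / Real.log (Real.log (3 : ℕ)) + 1 with hD
  have hlK₁ : 0 ≤ Real.log K₁ := Real.log_nonneg hK₁1
  have hD0 : 0 ≤ D := by positivity
  refine ⟨B, hB, K₁ * (1 + c₁ * K₁ * D), fun N hN => ?_⟩
  have hl := log_pos_of_three_le hN
  have hll : 0 < Real.log (Real.log N) := Real.log_pos hl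
  have hNpos : (0 : ℝ) < N := by
    have : 0 < N := by omega
    exact_mod_cast this
  have hmono : Real.log (Real.log (3 : ℕ)) ≤ Real.log (Real.log N) := by
    apply Real.log_le_log (by linarith)
    apply Real.log_le_log (by norm_num)
    exact_mod_cast hN
  obtain ⟨hW1, hW2⟩ := hW N hN
  have hWpos : (0 : ℝ) < W N := by
    have : 0 < W N := hW1
    exact_mod_cast this
  have hW3 : (W N : ℝ) ≤ K₁ * Real.log N :=
    hW2.trans (mul_le_mul_of_nonneg_right hKK₁ (by linarith))
  have hlW : Real.log (W N) ≤ Real.log K₁ + Real.log (Real.log N) := by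
    rw [← Real.log_mul (by linarith) (by linarith)]
    exact Real.log_le_log hWpos hW3
  have hlW0 : 0 ≤ Real.log (W N) := Real.log_natCast_nonneg _
  have h1 : 1 + Real.log (W N) ≤ D * Real.log (Real.log N) := by
    have h2 : 1 + Real.log K₁ ≤
        (1 + Real.log K₁) / Real.log (Real.log (3 : ℕ)) * Real.log (Real.log N) := by
      rw [div_mul_eq_mul_div, le_div_iff₀ hll3]
      exact mul_le_mul_of_nonneg_left hmono (by linarith)
    rw [hD, add_mul]
    linarith
  have h2 : N / Real.log N * mulTime A0 (W N) ≤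
      c₁ * K₁ * D * (N * Real.log (Real.log N)) := by
    calc N / Real.log N * mulTime A0 (W N)
        ≤ N / Real.log N * (c₁ * (W N * (1 + Real.log (W N)))) :=
          mul_le_mul_of_nonneg_left (hsmall _ hW1) (by positivity)
      _ ≤ N / Real.log N * (c₁ * (K₁ * Real.log N * (D * Real.log (Real.log N)))) := by
          gcongr
      _ = c₁ * K₁ * D * (N * Real.log (Real.log N)) := by
          have : Real.log N ≠ 0 := by linarith
          field_simp
  have h3 : 0 ≤ (mulTime A (N + s) : ℝ) + N / Real.log N * mulTime A0 (W N) +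
      N * Real.log (Real.log N) := by positivity
  have h4 : (0 : ℝ) ≤ mulTime A (N + s) := Nat.cast_nonneg _
  have h5 : 0 ≤ c₁ * K₁ * D * mulTime A (N + s) := by positivity
  calc (wordTime B N : ℝ) ≤ _ := hK N hN
    _ ≤ K₁ * (mulTime A (N + s) + N / Real.log N * mulTime A0 (W N) +
        N * Real.log (Real.log N)) := mul_le_mul_of_nonneg_right hKK₁ h3
    _ ≤ K₁ * ((1 + c₁ * K₁ * D) * (mulTime A (N + s) + N * Real.log (Real.log N))) := by
        apply mul_le_mul_of_nonneg_left _ (by linarith)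
        nlinarith
    _ = K₁ * (1 + c₁ * K₁ * D) * (mulTime A (N + s) + N * Real.log (Real.log N)) := by ring

end Vale.Agent.P338
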