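import Vale.Agent.P338.H930.Exact
import Vale.Agent.P338.H933.MuSpec
import Vale.Agent.P338.H933.RegularU

/-!
# The sharp reduction: final forms
-/

namespace Vale.Agent.P338

theorem transferTwo_holds : TransferTwo := by
  have h : TransferD (2 ^ (23 + 1)) := by
    have e : (2 ^ (23 + 1) : ℕ) = H51.CD := by unfold H51.CD; norm_num
    rw [e]
    exact transferD
  exact transferTwo h

theorem regular_holds {A : Machine} (hA : Multiplies A) :
    ∃ B : Machine, TransposesAll B ∧ ∃ K : ℝ, ∀ M : ℕ → ℝ,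
      (∀ n, 1 ≤ n → (mulTime A n : ℝ) ≤ M n) →
      (∀ m n : ℕ, 1 ≤ m → m ≤ n → M m / m ≤ M n / n) → ∀ N : ℕ, 3 ≤ N →
      (wordTime B N : ℝ) ≤ K * (M N + N * Real.log (Real.log N)) := by
  have h : TransferD (2 ^ (23 + 1)) := by
    have e : (2 ^ (23 + 1) : ℕ) = H51.CD := by unfold H51.CD; norm_num
    rw [e]
    exact transferD
  simpa only [one_mul, add_zero] using regular_uniform le_rfl (transferD_one h) hA 0

/-- From all lengths to `n × n` matrices. -/
theorem squares_of_all (B : Machine) (K : ℝ) : ∃ K' : ℝ, K ≤ K' ∧ 0 ≤ K' ∧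
    ∀ M : ℕ → ℝ, (∀ n, 1 ≤ n → 0 ≤ M n) →
    (∀ N : ℕ, 3 ≤ N → (wordTime B N : ℝ) ≤ K * (M N + N * Real.log (Real.log N))) →
    ∀ n : ℕ, 3 ≤ n → (wordTime B (n * n) : ℝ) ≤
      K' * (M (n ^ 2) + (n : ℝ) ^ 2 * Real.log (Real.log n)) := by
  have hlog3 : 1 < Real.log (3 : ℕ) := log_pos_of_three_le le_rfl
  have hll3 : 0 < Real.log (Real.log (3 : ℕ)) := Real.log_pos hlog3
  have hl2 : 0 ≤ Real.log 2 := Real.log_nonneg (by norm_num)
  set D : ℝ := Real.log 2 / Real.log (Real.log (3 : ℕ)) + 1 with hD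
  have hD1 : 1 ≤ D := by
    have : 0 ≤ Real.log 2 / Real.log (Real.log (3 : ℕ)) := by positivity
    linarith
  have hK0 : 0 ≤ max K 0 := le_max_right _ _
  refine ⟨max K 0 * D, (le_max_left K 0).trans (le_mul_of_one_le_right hK0 hD1), by positivity,
    fun M hM h n hn => ?_⟩
  have hl := log_pos_of_three_le hn
  have hll : 0 < Real.log (Real.log n) := Real.log_pos hl
  have hmono : Real.log (Real.log (3 : ℕ)) ≤ Real.log (Real.log n) := by
    apply Real.log_le_log (by linarith)
    apply Real.log_le_log (by norm_num)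
    exact_mod_cast hn
  have hnn : 3 ≤ n * n := by nlinarith
  have h1 := h (n * n) hnn
  have hnpos : (0 : ℝ) < n := by
    have : 0 < n := by omega
    exact_mod_cast this
  have e1 : Real.log (Real.log ((n * n : ℕ) : ℝ)) = Real.log 2 + Real.log (Real.log n) := by
    push_cast
    rw [Real.log_mul hnpos.ne' hnpos.ne', ← two_mul, Real.log_mul (by norm_num) (by linarith)]
  have e2 : Real.log 2 + Real.log (Real.log n) ≤ D * Real.log (Real.log n) := by
    have : Real.log 2 ≤ Real.log 2 / Real.log (Real.log (3 : ℕ)) * Real.log (Real.log n) := by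
      rw [div_mul_eq_mul_div, le_div_iff₀ hll3]
      exact mul_le_mul_of_nonneg_left hmono hl2
    rw [hD, add_mul]
    linarith
  have hM0 : 0 ≤ M (n * n) := hM _ (by omega)
  rw [e1] at h1
  have h2 : 0 ≤ M (n * n) + ((n * n : ℕ) : ℝ) * (Real.log 2 + Real.log (Real.log n)) := by
    positivity
  rw [pow_two n]
  calc (wordTime B (n * n) : ℝ) ≤ _ := h1
    _ ≤ max K 0 * (M (n * n) + ((n * n : ℕ) : ℝ) * (Real.log 2 + Real.log (Real.log n))) :=
        mul_le_mul_of_nonneg_right (le_max_left _ _) h2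
    _ ≤ max K 0 * (D * M (n * n) + (n : ℝ) ^ 2 * (D * Real.log (Real.log n))) := by
        apply mul_le_mul_of_nonneg_left _ (le_max_right _ _)
        have h3 : ((n * n : ℕ) : ℝ) * (Real.log 2 + Real.log (Real.log n)) ≤
            (n : ℝ) ^ 2 * (D * Real.log (Real.log n)) := by
          push_cast
          rw [← pow_two]
          exact mul_le_mul_of_nonneg_left e2 (by positivity)
        nlinarith
    _ = max K 0 * D * (M (n * n) + (n : ℝ) ^ 2 * Real.log (Real.log n)) := by ring

end Vale.Agent.P338
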